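import Vale.Agent.Lib.P040.TP.Gen.Near.Step

namespace Vale.Agent.Lib.P040.TP.Gen

theorem potNear_end (h θ θ' a b cp cm x xb : ℤ) (hθ' : 0 ≤ θ') (hab : a + b = h - θ)
    (hcp : 0 ≤ cp) (hcm : 0 ≤ cm) (hc : cp + cm = h - θ') (hx : x + xb = θ + θ' + 1) :
    potNear h θ θ' a b cp cm x xb 0 0 = 0 := by
  unfold potNear
  have t1 : RR (b + xb + cm - h) = RR (1 - (a + x + cp - h)) := by congr 1; linarith
  have t2 : RR (1 - (b + xb + cm - h)) = RR (a + x + cp - h) := by congr 1; linarith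
  have t3 : RR (θ' + 1 - (a + x)) = RR (b + xb - h) := by congr 1; linarith
  have t4 : RR (θ' + 1 - (b + xb)) = RR (a + x - h) := by congr 1; linarith
  have t5 : RR (θ + 1 - (cp + 0)) = RR (θ + 1 - cp) := by congr 1; ring
  have t6 : RR (θ + 1 - (cm + 0)) = RR (θ + 1 - cm) := by congr 1; ring
  have t7 : RR (cp + 0 - h) = 0 := RR_of_nonpos _ (by linarith)
  have t8 : RR (cm + 0 - h) = 0 := RR_of_nonpos _ (by linarith)
  have t9 : jsum θ (h - (b + xb)) cm (0 : ℤ).toNat = 0 := rfl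
  have t10 : jsum θ (h - (a + x)) cp (0 : ℤ).toNat = 0 := rfl
  rw [t1, t2, t3, t4, t5, t6, t7, t8, t9, t10]
  ring

theorem potNear_start (h θ θ' a b cp cm z zb : ℤ) (hθ : 0 ≤ θ) (ha : 0 ≤ a) (hb : 0 ≤ b)
    (hab : a + b = h - θ) (hc : cp + cm = h - θ') (hz : z + zb = θ + θ' + 1) :
    potNear h θ θ' a b cp cm 0 0 z zb
      = (RR (a + cp - h) - RR (1 - (a + cp - h))) + (RR (b + cm - h) - RR (1 - (b + cm - h)))
        + RR (θ' + 1 - a) + RR (θ' + 1 - b) + RR (θ + 1 - cp) + RR (θ + 1 - cm) := by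
  unfold potNear
  have t1 : RR (a + 0 + cp - h) = RR (a + cp - h) := by congr 1; ring
  have t2 : RR (1 - (a + 0 + cp - h)) = RR (1 - (a + cp - h)) := by congr 2; ring
  have t3 : RR (b + 0 + cm - h) = RR (b + cm - h) := by congr 1; ring
  have t4 : RR (1 - (b + 0 + cm - h)) = RR (1 - (b + cm - h)) := by congr 2; ring
  have t5 : RR (θ' + 1 - (a + 0)) = RR (θ' + 1 - a) := by congr 1; ring
  have t6 : RR (θ' + 1 - (b + 0)) = RR (θ' + 1 - b) := by congr 1; ring
  have t7 : RR (a + 0 - h) = 0 := RR_of_nonpos _ (by linarith)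
  have t8 : RR (b + 0 - h) = 0 := RR_of_nonpos _ (by linarith)
  have t9 : RR (θ + 1 - (cp + z)) = RR (cm + zb - h) := by congr 1; linarith
  have t10 : RR (θ + 1 - (cm + zb)) = RR (cp + z - h) := by congr 1; linarith
  have t11 : jsum θ (h - (b + 0)) cm zb.toNat = 0 := jsum_eq_zero _ _ _ _ (by linarith)
  have t12 : jsum θ (h - (a + 0)) cp z.toNat = 0 := jsum_eq_zero _ _ _ _ (by linarith)
  rw [t1, t2, t3, t4, t5, t6, t7, t8, t9, t10, t11, t12]
  ring

/-- The near potential vanishes after the last column of the middle zone. -/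
theorem near_end (h th thp a b cp cm x : ℤ) (hth : 1 ≤ th) (hthp : 1 ≤ thp)
    (hnear : th + thp ≤ h) (ha : 0 ≤ a) (hb : 0 ≤ b) (hab : a + b = h - th) (hcp : 0 ≤ cp)
    (hcm : 0 ≤ cm) (hcd : cp + cm = h - thp) (hx0 : 0 ≤ x) (hx : x ≤ th + thp + 1) :
    nPhi h th thp a b cp cm (th + thp + 1) x 0 = 0 := by
  rw [nPhi_eq_potNear]
  have e1 : th + thp + 1 - (th + thp + 1) - 0 = 0 := by ring
  rw [e1]
  exact potNear_end h th thp a b cp cm x (th + thp + 1 - x) (by omega) hab hcp hcm hcd (by ring)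

/-- Start inequality: the closed forms of the two outer zones plus the near potential of the
initial state are nonnegative (`tp1 = thp + 1`, `t1 = th + 1`). -/
theorem near_start (h th thp a b cp cm z tp1 t1 : ℤ) (htp1 : tp1 = thp + 1) (ht1 : t1 = th + 1)
    (hth : 1 ≤ th) (hthp : 1 ≤ thp) (hnear : th + thp ≤ h) (ha : 0 ≤ a) (hb : 0 ≤ b)
    (hab : a + b = h - th) (hcp : 0 ≤ cp) (hcm : 0 ≤ cm) (hcd : cp + cm = h - thp)
    (hz0 : 0 ≤ z) (hz : z ≤ th + thp + 1) :
    0 ≤ 2 * (a - cm) * (cp - b)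
      + (tp1 * (tp1 - 1) - RR (tp1 - a) - RR (tp1 - b) + RR (tp1 - a - b)
        - RR (a - h) - RR (b - h))
      + (t1 * (t1 - 1) - RR (t1 - cp) - RR (t1 - cm) + RR (t1 - cp - cm)
        - RR (cp - h) - RR (cm - h))
      + nPhi h th thp a b cp cm 0 0 z := by
  subst htp1 ht1
  rw [nPhi_eq_potNear]
  have e1 : (0 : ℤ) - 0 = 0 := by ring
  rw [e1, potNear_start h th thp a b cp cm z (th + thp + 1 - 0 - z) (by omega) ha hb hab hcd
    (by ring)]
  have n1 := RR_nonneg (thp + 1 - a - b)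
  have n2 := RR_nonneg (th + 1 - cp - cm)
  have n3 := RR_nonneg (a + cp - h)
  have n4 := RR_nonneg (b + cm - h)
  have z1 : RR (a - h) = 0 := RR_of_nonpos _ (by linarith)
  have z2 : RR (b - h) = 0 := RR_of_nonpos _ (by linarith)
  have z3 : RR (cp - h) = 0 := RR_of_nonpos _ (by linarith)
  have z4 : RR (cm - h) = 0 := RR_of_nonpos _ (by linarith)
  have r1 := RR_add_reflect (a + cp - h)
  have r2 := RR_add_reflect (b + cm - h)
  have key : 2 * (a - cm) * (cp - b) + (thp + 1) * (thp + 1 - 1) + (th + 1) * (th + 1 - 1)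
      - (a + cp - h) * (a + cp - h - 1) - (b + cm - h) * (b + cm - h - 1) = 0 := by
    obtain rfl : b = h - th - a := by linarith
    obtain rfl : cm = h - thp - cp := by linarith
    ring
  linarith

end Vale.Agent.Lib.P040.TP.Gen
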