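import Vale.Agent.Lib.P040.TP.Gen.CoreHalf
import Vale.Agent.Lib.P040.TP.Gen.Far.Cnt

/-!
# Straddling pairs: the outer zones

For a pair of vertices in gaps `g ≤ h - 1` and `g' ≥ h + 2` the left zone `[0, g)` and the right
zone `[g', n)` are evaluated in closed form (in terms of the numbers of `+1` signs of the second
vertex on the left zone and of the first vertex on the right zone); what is left is a sum over the
columns of the middle zone.
-/

namespace Vale.Agent.Lib.P040.TP.Gen

/-- The sum of the signs of the points `0, ..., k-1` as a difference of two counts. -/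
theorem pre_cnt (k : ℕ) (ε : ℕ → ℤ) (hε : IsSign ε) : pre ε k = cntp k ε 0 - cntm k ε 0 := by
  rw [cnt_sub k 0 ε hε]
  unfold pre
  rw [Finset.range_eq_Ico]

/-- The column value of a vertex in gap `g'` in a column `j` to its left, in count form. -/
theorem phi_count_left (h g' j : ℕ) (ε : ℕ → ℤ) (hε : IsSign ε) (hj : j < g')
    (hg' : g' ≤ 2 * h + 1) :
    phi (2 * h + 1) g' ε j =
      2 * min (h : ℤ) (min (j : ℤ)
        (max (if ε j = 1 then cntp j ε 0 else cntm j ε 0) ((g' : ℤ) - h - 1))) - j := by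
  have hadd := cnt_add j 0 (Nat.zero_le j) ε
  have hp := cntp_nonneg j 0 ε
  have hm := cntm_nonneg j 0 ε
  have hpre : pre ε j = cntp j ε 0 - cntm j ε 0 := pre_cnt j ε hε
  unfold phi
  rw [if_neg (by omega), hpre]
  unfold dcol
  push_cast at hadd ⊢
  generalize cntp j ε 0 = P at *
  generalize cntm j ε 0 = Mm at *
  rcases hε j with he | he
  · rw [he]
    simp only [if_true, one_mul]
    simp only [min_def, max_def]
    split_ifs <;> omega
  · rw [he]
    have hne : ¬ ((-1 : ℤ) = 1) := by decide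
    simp only [hne, if_false]
    simp only [min_def, max_def]
    split_ifs <;> omega

/-- A vertex in a gap `g ≥ h` is pure in the columns to its right. -/
theorem prof_right_pure (h g j : ℕ) (ε : ℕ → ℤ) (hε : IsSign ε) (hg : h ≤ g) (hgj : g ≤ j)
    (hj : j < 2 * h + 1) : prof (2 * h + 1) g ε j = suf (2 * h + 1) ε j := by
  have hadd := cnt_add (2 * h + 1) (j + 1) (by omega) ε
  have hp := cntp_nonneg (2 * h + 1) (j + 1) ε
  have hm := cntm_nonneg (2 * h + 1) (j + 1) ε
  have hsuf : suf (2 * h + 1) ε j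
      = cntp (2 * h + 1) ε (j + 1) - cntm (2 * h + 1) ε (j + 1) :=
    (cnt_sub (2 * h + 1) (j + 1) ε hε).symm
  unfold prof phi
  rw [if_pos hgj, hsuf]
  unfold dcol
  push_cast at hadd ⊢
  generalize cntp (2 * h + 1) ε (j + 1) = P at *
  generalize cntm (2 * h + 1) ε (j + 1) = Mm at *
  rcases hε j with he | he <;> rw [he] <;> omega

private lemma zlg_pre_succ (ε : ℕ → ℤ) (g : ℕ) : pre ε (g + 1) = pre ε g + ε g := by
  unfold pre
  rw [Finset.sum_range_succ]

private lemma zlg_inner (ε : ℕ → ℤ) (e : ℤ) (g : ℕ) :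
    ∑ k ∈ Finset.range g, (1 + ε k * e) = (g : ℤ) + e * pre ε g := by
  unfold pre
  rw [Finset.sum_add_distrib, Finset.sum_const, Finset.card_range, Finset.mul_sum]
  congr 1
  · simp
  · exact Finset.sum_congr rfl (fun k _ => mul_comm _ _)

/-- Left zone: both vertices see the points `0, ..., g-1` on their left. The inequality holds
for arbitrary column values `q`, `q'` and depths `d` (mirror image of `zrt`). -/
theorem zl_gen (g : ℕ) (ε ε' : ℕ → ℤ) (hε : IsSign ε) (hε' : IsSign ε') (q q' d : ℕ → ℤ) :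
    (pre ε' g) ^ 2 - (g : ℤ) ^ 2
      + 2 * ∑ j ∈ Finset.range g, (2 * ((j : ℤ) - d j) + ε' j * (q' j - pre ε' j)
          - |ε j * (q j - pre ε j)|)
      ≤ 2 * (∑ l ∈ Finset.range g, ∑ k ∈ Finset.range l, (1 + ε k * ε' l)
        - ∑ j ∈ Finset.range g, (2 * d j - |q j - q' j|)) := by
  induction g with
  | zero => simp [pre]
  | succ g ih =>
    rw [Finset.sum_range_succ, Finset.sum_range_succ, Finset.sum_range_succ, zlg_pre_succ,
      zlg_inner]
    have habs : |ε g * (q g - pre ε g)| = |q g - pre ε g| := by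
      rcases hε g with h | h
      · rw [h, one_mul]
      · rw [h, neg_one_mul, abs_neg]
    rw [habs]
    have h1 := le_abs_self (q g - pre ε g)
    have h2 := le_abs_self (q g - q' g)
    have h3 := neg_abs_le (q g - pre ε g)
    have h4 := neg_abs_le (q g - q' g)
    have hsq : ε' g * ε' g = 1 := by
      rcases hε' g with h | h <;> rw [h] <;> norm_num
    push_cast
    rcases hε' g with h | h
    · rw [h] at hsq ⊢
      nlinarith
    · rw [h] at hsq ⊢
      nlinarith

private lemma wl_RR_diff (x : ℤ) : RR x = RR (x - 1) + 2 * max (x - 1) 0 := by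
  unfold RR
  rcases le_or_gt x 0 with hx | hx
  · rw [max_eq_right hx, max_eq_right (by omega : x - 1 ≤ 0)]
    ring
  · rw [max_eq_left (by omega : 0 ≤ x), max_eq_left (by omega : 0 ≤ x - 1)]
    ring

theorem RR_of_nonpos (x : ℤ) (hx : x ≤ 0) : RR x = 0 := by
  unfold RR
  rw [max_eq_right hx]
  ring

theorem RR_of_nonneg (x : ℤ) (hx : 0 ≤ x) : RR x = x * (x - 1) := by
  unfold RR
  rw [max_eq_left hx]

/-- The signed closed form grows by the clamp correction when `a` grows by one. -/
private lemma wl_stepm (t h a b : ℤ) (hb : 0 ≤ b) (hth : t ≤ h + 1) :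
    - RR (t - (a + 1)) - RR (t - b) + RR (t - (a + 1) - b) - RR (a + 1 - h) - RR (b - h)
      = (- RR (t - a) - RR (t - b) + RR (t - a - b) - RR (a - h) - RR (b - h))
        + 2 * (min h (min (a + b) (max a (t - 1))) - a) := by
  have h1 := wl_RR_diff (t - a)
  rw [show t - a - 1 = t - (a + 1) by ring] at h1
  have h2 := wl_RR_diff (t - a - b)
  rw [show t - a - b - 1 = t - (a + 1) - b by ring] at h2
  have h3 := wl_RR_diff (a + 1 - h)
  rw [show a + 1 - h - 1 = a - h by ring] at h3
  have key : 2 * max (t - (a + 1)) 0 - 2 * max (t - (a + 1) - b) 0 - 2 * max (a - h) 0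
      = 2 * (min h (min (a + b) (max a (t - 1))) - a) := by omega
  linarith

/-- The signed closed form grows by the clamp correction when `b` grows by one. -/
private lemma wl_stepm' (t h a b : ℤ) (ha : 0 ≤ a) (hth : t ≤ h + 1) :
    - RR (t - a) - RR (t - (b + 1)) + RR (t - a - (b + 1)) - RR (a - h) - RR (b + 1 - h)
      = (- RR (t - a) - RR (t - b) + RR (t - a - b) - RR (a - h) - RR (b - h))
        + 2 * (min h (min (a + b) (max b (t - 1))) - b) := by
  have hs := wl_stepm t h b a ha hth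
  rw [show t - (b + 1) - a = t - a - (b + 1) by ring, show t - b - a = t - a - b by ring,
    add_comm b a] at hs
  linarith

/-- Closed form of the sum of the clamp corrections over the columns `0, ..., k-1`, for a vertex
in gap `g' ≥ h`, in terms of the numbers of the two signs among these points. -/
theorem WL_sgn (h g' k : ℕ) (ε : ℕ → ℤ) (hε : IsSign ε) (hg' : h ≤ g') (hgn : g' ≤ 2 * h + 1)
    (hk : k ≤ g') :
    ∑ j ∈ Finset.range k, (phi (2 * h + 1) g' ε j - ε j * pre ε j) =
      ((g' : ℤ) - h) * ((g' : ℤ) - h - 1)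
        - RR ((g' : ℤ) - h - cntp k ε 0) - RR ((g' : ℤ) - h - cntm k ε 0)
        + RR ((g' : ℤ) - h - cntp k ε 0 - cntm k ε 0)
        - RR (cntp k ε 0 - h) - RR (cntm k ε 0 - h) := by
  have hh0 : (0 : ℤ) ≤ h := Int.natCast_nonneg h
  have ht : (0 : ℤ) ≤ (g' : ℤ) - h := by
    have : (h : ℤ) ≤ g' := by exact_mod_cast hg'
    linarith
  have hth : (g' : ℤ) - h ≤ (h : ℤ) + 1 := by
    have : (g' : ℤ) ≤ 2 * (h : ℤ) + 1 := by exact_mod_cast hgn
    linarith
  induction k with
  | zero =>
    have hp : cntp 0 ε 0 = 0 := by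
      unfold cntp
      rw [Finset.Ico_self, Finset.sum_empty]
    have hm : cntm 0 ε 0 = 0 := by
      unfold cntm
      rw [Finset.Ico_self, Finset.sum_empty]
    rw [hp, hm, Finset.sum_range_zero, sub_zero, sub_zero, RR_of_nonneg _ ht,
      RR_of_nonpos (0 - (h : ℤ)) (by linarith)]
    ring
  | succ k ih =>
    have ih' := ih (by omega)
    have hab := cnt_add k 0 (Nat.zero_le k) ε
    have ha := cntp_nonneg k 0 ε
    have hb := cntm_nonneg k 0 ε
    push_cast at hab
    rw [Finset.sum_range_succ, ih', cntp_top k 0 (Nat.zero_le k) ε,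
      cntm_top k 0 (Nat.zero_le k) ε, phi_count_left h g' k ε hε (by omega) hgn,
      pre_cnt k ε hε]
    have hkab : (k : ℤ) = cntp k ε 0 + cntm k ε 0 := by linarith
    have hgt : (g' : ℤ) - h - 1 = ((g' : ℤ) - h) - 1 := by ring
    rw [hkab, hgt]
    by_cases h1 : ε k = 1
    · simp only [if_pos h1, add_zero]
      have sm := wl_stepm ((g' : ℤ) - h) h (cntp k ε 0) (cntm k ε 0) hb hth
      rw [h1]
      linarith
    · have h2 : ε k = -1 := by
        rcases hε k with h | h
        · exact absurd h h1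
        · exact h
      simp only [if_neg h1, add_zero]
      have sm := wl_stepm' ((g' : ℤ) - h) h (cntp k ε 0) (cntm k ε 0) ha hth
      rw [h2]
      linarith

/-- The left-zone sum of `zl_gen` for a straddling pair: only the clamp corrections of the
second vertex survive. -/
private theorem nz_sum_left (h g g' : ℕ) (ε ε' : ℕ → ℤ) (hε : IsSign ε) (hε' : IsSign ε')
    (hgh : g + 1 ≤ h) :
    ∑ j ∈ Finset.range g, (2 * ((j : ℤ) - dcol (2 * h + 1) j)
        + ε' j * (prof (2 * h + 1) g' ε' j - pre ε' j)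
        - |ε j * (prof (2 * h + 1) g ε j - pre ε j)|)
      = ∑ j ∈ Finset.range g, (phi (2 * h + 1) g' ε' j - ε' j * pre ε' j) := by
  refine Finset.sum_congr rfl (fun j hj => ?_)
  have hj' : j < g := Finset.mem_range.mp hj
  rw [dcol_left h j (by omega), prof_left_pure h g j ε hε (by omega) hj']
  have hsq : ε' j * ε' j = 1 := by
    rcases hε' j with h1 | h1 <;> rw [h1] <;> norm_num
  have e1 : ε' j * (prof (2 * h + 1) g' ε' j - pre ε' j)
      = phi (2 * h + 1) g' ε' j - ε' j * pre ε' j := by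
    unfold prof
    linear_combination (phi (2 * h + 1) g' ε' j) * hsq
  rw [e1]
  simp

/-- The right-zone sum of `zrt` for a straddling pair: only the clamp corrections of the
first vertex survive. -/
private theorem nz_sum_right (h g g' : ℕ) (ε ε' : ℕ → ℤ) (hε : IsSign ε) (hε' : IsSign ε')
    (hg' : h + 2 ≤ g') :
    ∑ j ∈ Finset.Ico g' (2 * h + 1),
        (2 * (((2 * h + 1 : ℕ) : ℤ) - 1 - j - dcol (2 * h + 1) j)
          + ε j * (prof (2 * h + 1) g ε j - suf (2 * h + 1) ε j)
          - |ε' j * (prof (2 * h + 1) g' ε' j - suf (2 * h + 1) ε' j)|)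
      = ∑ j ∈ Finset.Ico g' (2 * h + 1), omega (2 * h + 1) g ε j := by
  refine Finset.sum_congr rfl (fun j hj => ?_)
  obtain ⟨h1, h2⟩ := Finset.mem_Ico.mp hj
  rw [prof_right_pure h g' j ε' hε' (by omega) h1 h2]
  have hd : dcol (2 * h + 1) j = 2 * (h : ℤ) - j := by
    unfold dcol
    push_cast
    omega
  have hsq : ε j * ε j = 1 := by
    rcases hε j with h1 | h1 <;> rw [h1] <;> norm_num
  have e1 : ε j * (prof (2 * h + 1) g ε j - suf (2 * h + 1) ε j)
      = omega (2 * h + 1) g ε j := by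
    unfold prof omega
    linear_combination (phi (2 * h + 1) g ε j) * hsq
  rw [e1, hd]
  push_cast
  simp

/-- Reduction of the two-star inequality for a straddling pair to the columns between the two
vertices: the two outer zones contribute at least their closed forms. -/
theorem near_zones (h g g' : ℕ) (ε ε' : ℕ → ℤ) (hε : IsSign ε) (hε' : IsSign ε')
    (hgh : g + 1 ≤ h) (hg' : h + 2 ≤ g') (hgn : g' ≤ 2 * h + 1) :
    2 * (cntp g ε' 0 - cntm (2 * h + 1) ε g') * (cntp (2 * h + 1) ε g' - cntm g ε' 0)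
      + (((g' : ℤ) - h) * ((g' : ℤ) - h - 1)
        - RR ((g' : ℤ) - h - cntp g ε' 0) - RR ((g' : ℤ) - h - cntm g ε' 0)
        + RR ((g' : ℤ) - h - cntp g ε' 0 - cntm g ε' 0)
        - RR (cntp g ε' 0 - h) - RR (cntm g ε' 0 - h))
      + (((h : ℤ) + 1 - g) * ((h : ℤ) - g)
        - RR ((h : ℤ) + 1 - g - cntp (2 * h + 1) ε g')
        - RR ((h : ℤ) + 1 - g - cntm (2 * h + 1) ε g')
        + RR ((h : ℤ) + 1 - g - cntp (2 * h + 1) ε g' - cntm (2 * h + 1) ε g')
        - RR (cntp (2 * h + 1) ε g' - h) - RR (cntm (2 * h + 1) ε g' - h))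
      + ∑ j ∈ Finset.Ico g g', (∑ l ∈ Finset.Ico g j, (1 + ε j * ε' l)
          - |prof (2 * h + 1) g ε j + prof (2 * h + 1) g' ε' j|)
      ≤ cross2 (2 * h + 1) g g' ε ε'
        - ∑ j ∈ Finset.range (2 * h + 1), agree2 (2 * h + 1) g g' ε ε' j := by
  have hg : g ≤ g' := by omega
  rw [cross2_split (2 * h + 1) g g' hg hgn ε ε', cross_rect (2 * h + 1) g g' hgn ε ε',
    ← Finset.sum_range_add_sum_Ico _ hgn, ← Finset.sum_range_add_sum_Ico _ hg]
  have e1 : ∑ j ∈ Finset.range g, agree2 (2 * h + 1) g g' ε ε' j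
      = ∑ j ∈ Finset.range g, (2 * dcol (2 * h + 1) j
          - |prof (2 * h + 1) g ε j - prof (2 * h + 1) g' ε' j|) := by
    refine Finset.sum_congr rfl (fun j hj => ?_)
    have hj' : j < g := Finset.mem_range.mp hj
    unfold agree2
    rw [if_neg (by omega)]
  have e2 : ∑ j ∈ Finset.Ico g g', agree2 (2 * h + 1) g g' ε ε' j
      = ∑ j ∈ Finset.Ico g g', |prof (2 * h + 1) g ε j + prof (2 * h + 1) g' ε' j| := by
    refine Finset.sum_congr rfl (fun j hj => ?_)
    obtain ⟨h1, h2⟩ := Finset.mem_Ico.mp hj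
    unfold agree2
    rw [if_pos ⟨h1, h2⟩]
  have e3 : ∑ j ∈ Finset.Ico g' (2 * h + 1), agree2 (2 * h + 1) g g' ε ε' j
      = ∑ j ∈ Finset.Ico g' (2 * h + 1), (2 * dcol (2 * h + 1) j
          - |prof (2 * h + 1) g ε j - prof (2 * h + 1) g' ε' j|) := by
    refine Finset.sum_congr rfl (fun j hj => ?_)
    obtain ⟨h1, h2⟩ := Finset.mem_Ico.mp hj
    unfold agree2
    rw [if_neg (by omega)]
  rw [e1, e2, e3, Finset.sum_sub_distrib]
  have hzl := zl_gen g ε ε' hε hε' (fun j => prof (2 * h + 1) g ε j)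
    (fun j => prof (2 * h + 1) g' ε' j) (fun j => dcol (2 * h + 1) j)
  rw [nz_sum_left h g g' ε ε' hε hε' hgh, WL_sgn h g' g ε' hε' (by omega) hgn hg,
    pre_cnt g ε' hε'] at hzl
  have hzr := zrt (2 * h + 1) g' hgn ε ε' hε hε' (fun j => prof (2 * h + 1) g ε j)
    (fun j => prof (2 * h + 1) g' ε' j) (fun j => dcol (2 * h + 1) j)
  rw [nz_sum_right h g g' ε ε' hε hε' hg', W_sgn h g g' ε hε (by omega) hg hgn,
    ← cnt_sub (2 * h + 1) g' ε hε] at hzr
  rw [pre_cnt g ε' hε', ← cnt_sub (2 * h + 1) g' ε hε]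
  have hab := cnt_add g 0 (Nat.zero_le g) ε'
  have hcd := cnt_add (2 * h + 1) g' hgn ε
  push_cast at hab hcd hzl hzr ⊢
  have hgab : (g : ℤ) = cntp g ε' 0 + cntm g ε' 0 := by linarith
  have hNcd : 2 * (h : ℤ) + 1 - g' = cntp (2 * h + 1) ε g' + cntm (2 * h + 1) ε g' := by
    linarith
  generalize cntp g ε' 0 = a at *
  generalize cntm g ε' 0 = b at *
  generalize cntp (2 * h + 1) ε g' = cp at *
  generalize cntm (2 * h + 1) ε g' = cm at *
  rw [hNcd] at hzr ⊢
  rw [hgab] at hzl
  nlinarith [hzl, hzr]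

end Vale.Agent.Lib.P040.TP.Gen
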