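import Vale.Agent.Lib.P040.TP.Gen.Near.Defs
import Vale.Agent.Lib.P040.TP.Gen.Near.Zones

namespace Vale.Agent.Lib.P040.TP.Gen

/-- The crossing sum of an edge of sign `η` with the second edges to the points `g, ..., j - 1`
is twice the number of those edges on the page of `η`. -/
theorem near_col_sum (g j : ℕ) (ε' : ℕ → ℤ) (hε' : IsSign ε') (η : ℤ)
    (hη : η = 1 ∨ η = -1) :
    ∑ l ∈ Finset.Ico g j, (1 + η * ε' l)
      = 2 * (if η = 1 then cntp j ε' g else cntm j ε' g) := by
  unfold cntp cntm
  have hne : ¬ ((-1 : ℤ) = 1) := by decide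
  rcases hη with he | he
  · rw [he]
    simp only [if_true, one_mul]
    rw [Finset.mul_sum]
    apply Finset.sum_congr rfl
    intro l _
    rcases hε' l with hl | hl
    · rw [hl]
      simp only [if_true]
      norm_num
    · rw [hl]
      simp only [hne, if_false]
      norm_num
  · rw [he]
    simp only [hne, if_false]
    rw [Finset.mul_sum]
    apply Finset.sum_congr rfl
    intro l _
    rcases hε' l with hl | hl
    · rw [hl]
      simp only [if_true]
      norm_num
    · rw [hl]
      simp only [hne, if_false]
      norm_num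

/-- Complement of a clamped count. -/
theorem near_col_flip (hh j s s' thp : ℤ) (hs : s + s' = j) :
    max (j - hh) (max 0 (min s (j - thp))) = j - min hh (min j (max s' thp)) := by
  simp only [min_def, max_def]
  split_ifs <;> omega

/-- The integer form of the column identity. -/
theorem near_col_int (h th thp a b cp cm i x z e ep : ℤ) (he : e = 1 ∨ e = -1)
    (hep : ep = 1 ∨ ep = -1) (hab : a + b = h - th) :
    2 * (if e = 1 then x else i - x)
      - |e * (2 * min h (min (h + th - i)
            (max (if e = 1 then cp + z - 1 else cm + (th + thp + 1 - i - z) - 1) th))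
            - (h + th - i))
          + ep * (2 * min h (min (h - th + i)
            (max (if ep = 1 then a + x else b + (i - x)) thp)) - (h - th + i))|
      = ncost h th thp a b cp cm i x z e ep := by
  unfold ncost
  have hne : ¬ ((-1 : ℤ) = 1) := by decide
  have hne' : ¬ ((1 : ℤ) = -1) := by decide
  have hf1 := near_col_flip h (h - th + i) (a + x) (b + (i - x)) thp (by linarith)
  have hf2 := near_col_flip h (h - th + i) (b + (i - x)) (a + x) thp (by linarith)
  have e1 : h - th + i - h = i - th := by ring
  have e2 : h - th + i - thp = h - th - thp + i := by ring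
  rw [e1, e2] at hf1 hf2
  rcases he with he | he <;> rcases hep with hep | hep
  · rw [he, hep]
    simp only [if_true, one_mul]
    generalize min h (min (h + th - i) (max (cp + z - 1) th)) = A
    generalize min h (min (h - th + i) (max (a + x) thp)) = B
    rcases abs_cases (2 * A - (h + th - i) + (2 * B - (h - th + i))) with h1 | h1 <;>
      rcases abs_cases (A + B - h) with h2 | h2 <;> omega
  · rw [he, hep]
    simp only [if_true, hne, if_false, one_mul]
    rw [hf1]
    generalize min h (min (h + th - i) (max (cp + z - 1) th)) = A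
    generalize min h (min (h - th + i) (max (b + (i - x)) thp)) = B
    rcases abs_cases (2 * A - (h + th - i) + -1 * (2 * B - (h - th + i))) with h1 | h1 <;>
      rcases abs_cases (A + (h - th + i - B) - h) with h2 | h2 <;> omega
  · rw [he, hep]
    simp only [if_true, hne, hne', if_false, one_mul]
    rw [hf2]
    generalize min h (min (h + th - i) (max (cm + (th + thp + 1 - i - z) - 1) th)) = A
    generalize min h (min (h - th + i) (max (a + x) thp)) = B
    rcases abs_cases (-1 * (2 * A - (h + th - i)) + (2 * B - (h - th + i))) with h1 | h1 <;>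
      rcases abs_cases (A + (h - th + i - B) - h) with h2 | h2 <;> omega
  · rw [he, hep]
    simp only [if_true, hne, if_false]
    generalize min h (min (h + th - i) (max (cm + (th + thp + 1 - i - z) - 1) th)) = A
    generalize min h (min (h - th + i) (max (b + (i - x)) thp)) = B
    rcases abs_cases (-1 * (2 * A - (h + th - i)) + -1 * (2 * B - (h - th + i))) with h1 | h1 <;>
      rcases abs_cases (A + B - h) with h2 | h2 <;> omega

/-- Column identity: for a column between the two vertices, the doubled number of crossings of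
its first edge with the earlier second edges minus the doubled agreement is the cost of the state
reached before the column. -/
theorem near_col (h g g' j : ℕ) (ε ε' : ℕ → ℤ) (hε : IsSign ε) (hε' : IsSign ε') (hgj : g ≤ j)
    (hjg : j < g') (hgn : g' ≤ 2 * h + 1) :
    ∑ l ∈ Finset.Ico g j, (1 + ε j * ε' l)
        - |prof (2 * h + 1) g ε j + prof (2 * h + 1) g' ε' j|
      = ncost h ((h : ℤ) - g) ((g' : ℤ) - h - 1) (cntp g ε' 0) (cntm g ε' 0)
          (cntp (2 * h + 1) ε g') (cntm (2 * h + 1) ε g') ((j : ℤ) - g) (cntp j ε' g)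
          (cntp g' ε j) (ε j) (ε' j) := by
  have hj : j < 2 * h + 1 := by omega
  have hsum := near_col_sum g j ε' hε' (ε j) (hε j)
  have hphi := phi_count h g j ε hε hgj hj
  have hphi' := phi_count_left h g' j ε' hε' hjg hgn
  have hx := cnt_add j g hgj ε'
  have hps : cntp j ε' 0 = cntp g ε' 0 + cntp j ε' g :=
    cntp_split 0 g j (Nat.zero_le g) hgj ε'
  have hms : cntm j ε' 0 = cntm g ε' 0 + cntm j ε' g :=
    cntm_split 0 g j (Nat.zero_le g) hgj ε'
  have hzp : cntp (2 * h + 1) ε j = cntp g' ε j + cntp (2 * h + 1) ε g' :=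
    cntp_split j g' (2 * h + 1) hjg.le hgn ε
  have hzm : cntm (2 * h + 1) ε j = cntm g' ε j + cntm (2 * h + 1) ε g' :=
    cntm_split j g' (2 * h + 1) hjg.le hgn ε
  have hstp := cntp_step (2 * h + 1) j hj ε
  have hstm := cntm_step (2 * h + 1) j hj ε
  have hz := cnt_add g' j hjg.le ε
  have hab := cnt_add g 0 (Nat.zero_le g) ε'
  push_cast at hab
  have key := near_col_int h ((h : ℤ) - g) ((g' : ℤ) - h - 1) (cntp g ε' 0) (cntm g ε' 0)
    (cntp (2 * h + 1) ε g') (cntm (2 * h + 1) ε g') ((j : ℤ) - g) (cntp j ε' g)
    (cntp g' ε j) (ε j) (ε' j) (hε j) (hε' j) (by linarith)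
  rw [← key]
  unfold prof
  rw [hsum, hphi, hphi']
  have e1 : (h : ℤ) + ((h : ℤ) - g) - ((j : ℤ) - g) = 2 * (h : ℤ) - j := by ring
  have e2 : (h : ℤ) - ((h : ℤ) - g) + ((j : ℤ) - g) = j := by ring
  have e3 : (if ε j = 1 then cntp j ε' g else cntm j ε' g)
      = (if ε j = 1 then cntp j ε' g else ((j : ℤ) - g) - cntp j ε' g) := by
    split_ifs
    · rfl
    · linarith
  have e4 : (if ε j = 1 then cntp (2 * h + 1) ε (j + 1) else cntm (2 * h + 1) ε (j + 1))
      = (if ε j = 1 then cntp (2 * h + 1) ε g' + cntp g' ε j - 1
        else cntm (2 * h + 1) ε g'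
          + (((h : ℤ) - g) + ((g' : ℤ) - h - 1) + 1 - ((j : ℤ) - g) - cntp g' ε j) - 1) := by
    split_ifs with hc
    · rw [if_pos hc] at hstp
      linarith
    · rw [if_neg hc] at hstm
      linarith
  have e5 : (if ε' j = 1 then cntp j ε' 0 else cntm j ε' 0)
      = (if ε' j = 1 then cntp g ε' 0 + cntp j ε' g
        else cntm g ε' 0 + (((j : ℤ) - g) - cntp j ε' g)) := by
    split_ifs
    · exact hps
    · linarith
  rw [e1, e2, e3, e4, e5]

end Vale.Agent.Lib.P040.TP.Gen
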