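import Vale.Agent.Lib.P040.TP.Gen.Defs

/-!
# The near straddling case: state potential

Integer functions used for two vertices in gaps `g ≤ h - 1` and `g' ≥ h + 2` with at most `h`
points between them (`n = 2h + 1` points). Write `th = h - g`, `thp = g' - h - 1`; the middle zone
has `th + thp + 1` columns, swept from the first vertex to the second. The state before column
`i` (counted from the first vertex) consists of `x`, the number of `+1` edges of the second vertex
to the earlier columns of the middle zone, and `z`, the number of `+1` edges of the first vertex
to the columns from `i` on. The parameters `a`, `b` count the `+1` and `-1` edges of the second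
vertex to the points left of the first vertex, and `cp`, `cm` the `+1` and `-1` edges of the first
vertex to the points right of the second vertex. All quantities are doubled.
-/

namespace Vale.Agent.Lib.P040.TP.Gen

/-- Doubled signed triangular number: `n (n - 1)` for `n ≥ 1` and `- n (n - 1)` for `n ≤ 0`. -/
def nPsi (n : ℤ) : ℤ := RR n - RR (1 - n)

/-- The sum of `(th - max m r)⁺` over `r = c, ..., c + k - 1`. -/
def nI (th m c : ℤ) (k : ℕ) : ℤ := ∑ t ∈ Finset.range k, max (th - max m (c + t)) 0

/-- Twice the potential, as a function of the counts: `x`, `xb` (`+1`, `-1` edges of the second
vertex to the earlier middle columns), `z`, `zb` (`+1`, `-1` edges of the first vertex to the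
remaining middle columns), `pp = a + x`, `pm = b + xb`, `rp = cp + z`, `rm = cm + zb`. -/
def nPhiAux (h th thp cp cm x xb z zb pp pm rp rm : ℤ) : ℤ :=
  2 * (x * z) + 2 * (xb * zb) + nPsi (pp + cp - h) + nPsi (pm + cm - h)
    + RR (thp + 1 - pp) + RR (thp + 1 - pm) - RR (pp - h) - RR (pm - h)
    - RR (th + 1 - rp) - RR (th + 1 - rm) + RR (rp - h) + RR (rm - h)
    + RR (th + 1 - cp) + RR (th + 1 - cm)
    - 4 * (nI th (h - pm) cm zb.toNat + nI th (h - pp) cp z.toNat)

/-- Twice the potential of the state `(x, z)` before column `i` of the middle zone. -/
def nPhi (h th thp a b cp cm i x z : ℤ) : ℤ :=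
  nPhiAux h th thp cp cm x (i - x) z (th + thp + 1 - i - z) (a + x) (b + (i - x)) (cp + z)
    (cm + (th + thp + 1 - i - z))

/-- Twice the cost of column `i` of the middle zone in the state `(x, z)`, where `e`, `ep` are the
signs of the edges of the first and of the second vertex to the point of the column: the doubled
number of crossings of the first edge with the earlier edges of the second vertex, minus the
doubled agreement of the two vertices in the column. -/
def ncost (h th thp a b cp cm i x z e ep : ℤ) : ℤ :=
  2 * (if e = 1 then x else i - x)
    - 2 * |min h (min (h + th - i)
          (max (if e = 1 then cp + z - 1 else cm + (th + thp + 1 - i - z) - 1) th))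
        + (if ep = e then
            min h (min (h - th + i) (max (if e = 1 then a + x else b + (i - x)) thp))
          else
            max (i - th) (max 0 (min (if e = 1 then a + x else b + (i - x)) (h - th - thp + i))))
        - h|

end Vale.Agent.Lib.P040.TP.Gen
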