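import Vale.Agent.Lib.P040.TP.Gen.Near.Defs
import Vale.Agent.Lib.P040.TP.Gen.PotNear

namespace Vale.Agent.Lib.P040.TP.Gen

theorem nI_eq_jsum (th m c : ℤ) (k : ℕ) : nI th m c k = jsum th m c k := by
  induction k with
  | zero => rfl
  | succ k ih =>
    unfold nI at ih ⊢
    rw [Finset.sum_range_succ, ih]
    rfl

theorem nPhi_eq_potNear (h th thp a b cp cm i x z : ℤ) :
    nPhi h th thp a b cp cm i x z
      = potNear h th thp a b cp cm x (i - x) z (th + thp + 1 - i - z) := by
  unfold nPhi nPhiAux nPsi potNear
  rw [nI_eq_jsum, nI_eq_jsum]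

/-- Step inequality of the near potential: passing one column of the middle zone, the potential
drops by at most the cost of the column. -/
theorem near_step (h th thp a b cp cm i x z e ep : ℤ) (hth : 1 ≤ th) (hthp : 1 ≤ thp)
    (hnear : th + thp ≤ h) (ha : 0 ≤ a) (hb : 0 ≤ b) (hab : a + b = h - th) (hcp : 0 ≤ cp)
    (hcm : 0 ≤ cm) (hcd : cp + cm = h - thp) (hx0 : 0 ≤ x) (hxi : x ≤ i) (hi : i ≤ th + thp)
    (hz0 : 0 ≤ z) (hz : z ≤ th + thp + 1 - i) (he : e = 1 ∨ e = -1) (hep : ep = 1 ∨ ep = -1)
    (hez : e = 1 → 1 ≤ z) (hez' : e = -1 → z ≤ th + thp - i) :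
    nPhi h th thp a b cp cm i x z
        - nPhi h th thp a b cp cm (i + 1) (x + if ep = 1 then 1 else 0)
            (z - if e = 1 then 1 else 0)
      ≤ ncost h th thp a b cp cm i x z e ep := by
  rw [nPhi_eq_potNear, nPhi_eq_potNear]
  have hxx : x + (i - x) = i := by ring
  rcases he with rfl | rfl <;> rcases hep with rfl | rfl
  · -- both signs `+`
    have hs := step_same_plus h th thp a b cp cm x (i - x) z (th + thp + 1 - i - z) hth hthp
      hnear ha hb hab hcp hcm hcd hx0 (by omega) (hez rfl) (by omega) (by ring)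
    rw [hxx] at hs
    have e1 : i + 1 - (x + 1) = i - x := by ring
    have e2 : th + thp + 1 - (i + 1) - (z - 1) = th + thp + 1 - i - z := by ring
    simp only [if_true]
    rw [e1, e2]
    refine le_trans hs (le_of_eq ?_)
    unfold costSame ncost
    simp only [if_true]
    ring
  · -- first `+`, second `-`
    have hs := step_opp_plus h th thp a b cp cm x (i - x) z (th + thp + 1 - i - z) hth hthp
      hnear ha hb hab hcp hcm hcd hx0 (by omega) (hez rfl) (by omega) (by ring)
    rw [hxx] at hs
    have e1 : i + 1 - (x + 0) = i - x + 1 := by ring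
    have e2 : th + thp + 1 - (i + 1) - (z - 1) = th + thp + 1 - i - z := by ring
    have e3 : x + 0 = x := by ring
    have hne : ¬ ((-1 : ℤ) = 1) := by norm_num
    simp only [if_true, if_neg hne]
    rw [e1, e2, e3]
    refine le_trans hs (le_of_eq ?_)
    unfold costOpp ncost
    simp only [if_true, if_neg hne]
    ring
  · -- first `-`, second `+`
    have hs := step_opp_minus h th thp a b cp cm x (i - x) z (th + thp + 1 - i - z) hth hthp
      hnear ha hb hab hcp hcm hcd hx0 (by omega) hz0 (by have := hez' rfl; omega) (by ring)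
    rw [hxx] at hs
    have e1 : i + 1 - (x + 1) = i - x := by ring
    have e2 : th + thp + 1 - (i + 1) - (z - 0) = th + thp + 1 - i - z - 1 := by ring
    have e3 : z - 0 = z := by ring
    have hne : ¬ ((-1 : ℤ) = 1) := by norm_num
    have hne' : ¬ ((1 : ℤ) = -1) := by norm_num
    simp only [if_true, if_neg hne]
    rw [e1, e2, e3]
    refine le_trans hs (le_of_eq ?_)
    unfold costOpp ncost
    simp only [if_neg hne, if_neg hne']
    ring
  · -- both signs `-`
    have hs := step_same_minus h th thp a b cp cm x (i - x) z (th + thp + 1 - i - z) hth hthp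
      hnear ha hb hab hcp hcm hcd hx0 (by omega) hz0 (by have := hez' rfl; omega) (by ring)
    rw [hxx] at hs
    have e1 : i + 1 - (x + 0) = i - x + 1 := by ring
    have e2 : th + thp + 1 - (i + 1) - (z - 0) = th + thp + 1 - i - z - 1 := by ring
    have e3 : z - 0 = z := by ring
    have e4 : x + 0 = x := by ring
    have hne : ¬ ((-1 : ℤ) = 1) := by norm_num
    simp only [if_neg hne]
    rw [e1, e2, e3, e4]
    refine le_trans hs (le_of_eq ?_)
    unfold costSame ncost
    simp only [if_neg hne, if_true]
    ring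

end Vale.Agent.Lib.P040.TP.Gen
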