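import Vale.Agent.Lib.P040.TP.Gen.Near.Col
import Vale.Agent.Lib.P040.TP.Gen.Near.Step
import Vale.Agent.Lib.P040.TP.Gen.Near.Bdry

namespace Vale.Agent.Lib.P040.TP.Gen

/-- Sweep of the columns `k, ..., g' - 1` of the middle zone: the potential of the state before
column `k` is at most the sum of the remaining column terms. -/
theorem near_sweep (h g g' : ℕ) (ε ε' : ℕ → ℤ) (hε : IsSign ε) (hε' : IsSign ε')
    (hgh : g + 1 ≤ h) (hg' : h + 2 ≤ g') (hgn : g' ≤ 2 * h + 1) (hnear : g' ≤ g + h + 1)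
    (k : ℕ) (hgk : g ≤ k) (hk : k ≤ g') :
    nPhi h ((h : ℤ) - g) ((g' : ℤ) - h - 1) (cntp g ε' 0) (cntm g ε' 0)
        (cntp (2 * h + 1) ε g') (cntm (2 * h + 1) ε g') ((k : ℤ) - g) (cntp k ε' g)
        (cntp g' ε k)
      ≤ ∑ j ∈ Finset.Ico k g', (∑ l ∈ Finset.Ico g j, (1 + ε j * ε' l)
          - |prof (2 * h + 1) g ε j + prof (2 * h + 1) g' ε' j|) := by
  have hth : (1 : ℤ) ≤ (h : ℤ) - g := by omega
  have hthp : (1 : ℤ) ≤ (g' : ℤ) - h - 1 := by omega
  have hnr : ((h : ℤ) - g) + ((g' : ℤ) - h - 1) ≤ h := by omega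
  have ha := cntp_nonneg g 0 ε'
  have hb := cntm_nonneg g 0 ε'
  have hab : cntp g ε' 0 + cntm g ε' 0 = (h : ℤ) - ((h : ℤ) - g) := by
    have := cnt_add g 0 (Nat.zero_le g) ε'
    push_cast at this
    linarith
  have hcp := cntp_nonneg (2 * h + 1) g' ε
  have hcm := cntm_nonneg (2 * h + 1) g' ε
  have hcd : cntp (2 * h + 1) ε g' + cntm (2 * h + 1) ε g' = (h : ℤ) - ((g' : ℤ) - h - 1) := by
    have := cnt_add (2 * h + 1) g' hgn ε
    push_cast at this
    linarith
  have key : ∀ d k : ℕ, g ≤ k → k + d = g' →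
      nPhi h ((h : ℤ) - g) ((g' : ℤ) - h - 1) (cntp g ε' 0) (cntm g ε' 0)
          (cntp (2 * h + 1) ε g') (cntm (2 * h + 1) ε g') ((k : ℤ) - g) (cntp k ε' g)
          (cntp g' ε k)
        ≤ ∑ j ∈ Finset.Ico k g', (∑ l ∈ Finset.Ico g j, (1 + ε j * ε' l)
            - |prof (2 * h + 1) g ε j + prof (2 * h + 1) g' ε' j|) := by
    intro d
    induction d with
    | zero =>
      intro k hgk hkd
      have hkg : k = g' := by omega
      rw [hkg, Finset.Ico_self, Finset.sum_empty]
      have hz : cntp g' ε g' = 0 := by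
        unfold cntp
        rw [Finset.Ico_self, Finset.sum_empty]
      rw [hz]
      have hi : ((g' : ℤ) - g) = ((h : ℤ) - g) + ((g' : ℤ) - h - 1) + 1 := by ring
      rw [hi]
      have hx : cntp g' ε' g ≤ ((h : ℤ) - g) + ((g' : ℤ) - h - 1) + 1 := by
        have h1 := cnt_add g' g (by omega) ε'
        have h2 := cntm_nonneg g' g ε'
        linarith
      exact le_of_eq (near_end h _ _ _ _ _ _ _ hth hthp hnr ha hb hab hcp hcm hcd
        (cntp_nonneg g' g ε') hx)
    | succ d ih =>
      intro k hgk hkd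
      have hkg : k < g' := by omega
      have ih' := ih (k + 1) (by omega) (by omega)
      rw [Finset.sum_eq_sum_Ico_succ_bot hkg]
      have hcol := near_col h g g' k ε ε' hε hε' hgk hkg hgn
      have hx' : cntp (k + 1) ε' g = cntp k ε' g + (if ε' k = 1 then 1 else 0) :=
        cntp_top k g hgk ε'
      have hzs : cntp g' ε k = cntp g' ε (k + 1) + (if ε k = 1 then 1 else 0) :=
        cntp_step g' k hkg ε
      have hzm : cntm g' ε k = cntm g' ε (k + 1) + (if ε k = 1 then 0 else 1) :=
        cntm_step g' k hkg ε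
      have hz' : cntp g' ε (k + 1) = cntp g' ε k - (if ε k = 1 then 1 else 0) := by
        linarith
      have hi' : (((k + 1 : ℕ) : ℤ) - g) = ((k : ℤ) - g) + 1 := by
        push_cast
        ring
      have hxk := cnt_add k g hgk ε'
      have hxm := cntm_nonneg k g ε'
      have hzk := cnt_add g' k hkg.le ε
      have hzkm := cntm_nonneg g' k ε
      have hzp1 := cntp_nonneg g' (k + 1) ε
      have hzm1 := cntm_nonneg g' (k + 1) ε
      have hstep := near_step h ((h : ℤ) - g) ((g' : ℤ) - h - 1) (cntp g ε' 0) (cntm g ε' 0)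
        (cntp (2 * h + 1) ε g') (cntm (2 * h + 1) ε g') ((k : ℤ) - g) (cntp k ε' g)
        (cntp g' ε k) (ε k) (ε' k) hth hthp hnr ha hb hab hcp hcm hcd (cntp_nonneg k g ε')
        (by linarith) (by omega) (cntp_nonneg g' k ε) (by linarith) (hε k) (hε' k)
        (by
          intro he
          rw [if_pos he] at hzs
          linarith)
        (by
          intro he
          have hne : ¬ (ε k = 1) := by
            rw [he]
            decide
          rw [if_neg hne] at hzm
          linarith)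
      rw [hi', hx', hz'] at ih'
      linarith
  exact key (g' - k) k hgk (by omega)

end Vale.Agent.Lib.P040.TP.Gen
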